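/-
S0170 team project, work package C2 (helper17): reshaping parked boxes by centred shears.
Proves the statement `Spec.reshape` of `Crest/Agent/Helper21/BoxFlow/Spec.lean` verbatim.
-/
import Crest.Agent.Helper21.BoxFlow.Defs

set_option autoImplicit false
open Crest.AnalysisR.BoxFlow Crest.Agent.Helper21

namespace Crest.Agent.Helper17

noncomputable section

/-- Centred shear about the rational point `P`: `x_p += κ (x_q - P_q)`. -/
def cshear (P : Fin 3 → ℚ) (p q : Fin 3) (κ : ℚ) (x : Sp) : Sp :=
  shearMap p (-(κ * P q)) (Pi.single q κ) x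

theorem affFun_single (α κ : ℚ) (q : Fin 3) (x : Sp) :
    affFun α (Pi.single q κ) x = (α : ℝ) + (κ : ℝ) * x q := by
  unfold affFun
  congr 1
  rw [Finset.sum_eq_single q]
  · simp
  · intro b _ hb
    simp [hb]
  · intro hq
    exact absurd (Finset.mem_univ q) hq

theorem cshear_apply (P : Fin 3 → ℚ) (p q : Fin 3) (κ : ℚ) (x : Sp) (l : Fin 3) :
    cshear P p q κ x l = x l + if l = p then (κ : ℝ) * (x q - (P q : ℝ)) else 0 := by
  unfold cshear shearMap
  rw [affFun_single]
  by_cases hl : l = p
  · subst hl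
    simp only [Pi.add_apply, Pi.smul_apply, Pi.single_eq_same, smul_eq_mul, mul_one, if_true]
    push_cast
    ring
  · simp [hl]

/-- The sup-radius about `P` grows at most by the factor `1 + |κ|` under a centred shear. -/
theorem cshear_radius (P : Fin 3 → ℚ) (p q : Fin 3) (κ : ℚ) (y : Sp) (r : ℝ)
    (hy : ∀ l, |y l - (P l : ℝ)| ≤ r) (l : Fin 3) :
    |cshear P p q κ y l - (P l : ℝ)| ≤ (1 + |(κ : ℝ)|) * r := by
  have hr : 0 ≤ r := le_trans (abs_nonneg _) (hy l)
  rw [cshear_apply]
  by_cases hl : l = p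
  · subst hl
    rw [if_pos rfl]
    have h1 := hy l
    have h2 := hy q
    calc |y l + (κ : ℝ) * (y q - (P q : ℝ)) - (P l : ℝ)|
        = |(y l - (P l : ℝ)) + (κ : ℝ) * (y q - (P q : ℝ))| := by ring_nf
      _ ≤ |y l - (P l : ℝ)| + |(κ : ℝ) * (y q - (P q : ℝ))| := abs_add_le _ _
      _ = |y l - (P l : ℝ)| + |(κ : ℝ)| * |y q - (P q : ℝ)| := by rw [abs_mul]
      _ ≤ r + |(κ : ℝ)| * r := by
          have := mul_le_mul_of_nonneg_left h2 (abs_nonneg (κ : ℝ))
          linarith
      _ = (1 + |(κ : ℝ)|) * r := by ring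
  · rw [if_neg hl, add_zero]
    have h1 := hy l
    have : 0 ≤ |(κ : ℝ)| * r := mul_nonneg (abs_nonneg _) hr
    nlinarith

/-- Apply a list of centred shears (first element first). An entry `(p, q, κ)` is the shear
`x_p += κ (x_q - P_q)`. -/
def applyShears (P : Fin 3 → ℚ) : List (Fin 3 × Fin 3 × ℚ) → Sp → Sp
  | [], x => x
  | s :: L, x => applyShears P L (cshear P s.1 s.2.1 s.2.2 x)

theorem applyShears_append (P : Fin 3 → ℚ) (L₁ L₂ : List (Fin 3 × Fin 3 × ℚ)) (x : Sp) :
    applyShears P (L₁ ++ L₂) x = applyShears P L₂ (applyShears P L₁ x) := by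
  induction L₁ generalizing x with
  | nil => rfl
  | cons s L ih => simp only [List.cons_append, applyShears, ih]

/-- The total growth factor of a list of shears. -/
def growth : List (Fin 3 × Fin 3 × ℚ) → ℚ
  | [] => 1
  | s :: L => (1 + |s.2.2|) * growth L

theorem one_le_growth (L : List (Fin 3 × Fin 3 × ℚ)) : 1 ≤ growth L := by
  induction L with
  | nil => simp [growth]
  | cons s L ih =>
    simp only [growth]
    have : (0 : ℚ) ≤ |s.2.2| := abs_nonneg _
    nlinarith

/-- Chain lemma: a list of centred shears applied to box `i` inside the cube of radius `ρ` about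
`P`, all other boxes staying outside the cube of radius `ρ + 1`. -/
theorem chain {n : ℕ} (a h : Fin n → Fin 3 → ℚ) (i : Fin n) (P : Fin 3 → ℚ) (ρ : ℚ)
    (L : List (Fin 3 × Fin 3 × ℚ)) (hL : ∀ s ∈ L, s.1 ≠ s.2.1) :
    ∀ (D : Config n) (ρ₀ : ℚ), 0 ≤ ρ₀ → ρ₀ * growth L < ρ →
      (∀ x ∈ box (a i) (h i), ∀ l, |D i x l - (P l : ℝ)| ≤ (ρ₀ : ℝ)) →
      (∀ j, j ≠ i → ∀ x ∈ box (a j) (h j),
        D j x ∉ closedCell (fun l => P l - ρ - 1) (fun l => P l + ρ + 1)) →
      Relation.ReflTransGen (Step a h) D
        (Function.update D i (fun x => applyShears P L (D i x))) := by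
  induction L with
  | nil =>
    intro D ρ₀ _ _ _ _
    have : (fun x => applyShears P [] (D i x)) = D i := rfl
    rw [this, Function.update_eq_self]
  | cons s L ih =>
    intro D ρ₀ hρ₀ hlt hin hout
    have hs : s.1 ≠ s.2.1 := hL s (List.mem_cons_self)
    have hL' : ∀ s' ∈ L, s'.1 ≠ s'.2.1 := fun s' hs' => hL s' (List.mem_cons_of_mem _ hs')
    have hg : 1 ≤ growth L := one_le_growth L
    have hκ : (0 : ℚ) ≤ |s.2.2| := abs_nonneg _
    simp only [growth] at hlt
    -- radius bounds in ℚ
    have hb1 : ρ₀ ≤ ρ₀ * ((1 + |s.2.2|) * growth L) := by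
      have : 1 ≤ (1 + |s.2.2|) * growth L := by nlinarith
      nlinarith
    have hb2 : (1 + |s.2.2|) * ρ₀ ≤ ρ₀ * ((1 + |s.2.2|) * growth L) := by
      have : 0 ≤ (1 + |s.2.2|) * ρ₀ := by positivity
      nlinarith
    have hρ₀lt : (ρ₀ : ℝ) < (ρ : ℝ) := by exact_mod_cast lt_of_le_of_lt hb1 hlt
    have hρ₁lt : (1 + |(s.2.2 : ℝ)|) * (ρ₀ : ℝ) < (ρ : ℝ) := by
      have := lt_of_le_of_lt hb2 hlt
      have h2 : (((1 + |s.2.2|) * ρ₀ : ℚ) : ℝ) < (ρ : ℝ) := by exact_mod_cast this
      push_cast at h2
      exact h2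
    have hρpos : (0 : ℚ) < ρ := lt_of_le_of_lt (le_trans hρ₀ hb1) hlt
    set D' : Config n := Function.update D i (fun x => cshear P s.1 s.2.1 s.2.2 (D i x)) with hD'
    have hstep : Step a h D D' := by
      refine ⟨i, s.1, -(s.2.2 * P s.2.1), Pi.single s.2.1 s.2.2, fun l => P l - ρ,
        fun l => P l + ρ, 1, ?_, ?_, one_pos, ?_, ?_, rfl⟩
      · exact Pi.single_eq_of_ne hs _
      · intro j
        linarith
      · intro x hx
        constructor
        · intro l
          have h1 := hin x hx l
          rw [abs_le] at h1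
          push_cast
          constructor <;> linarith [h1.1, h1.2]
        · intro l
          have h1 := cshear_radius P s.1 s.2.1 s.2.2 (D i x) ρ₀ (hin x hx) l
          rw [abs_le] at h1
          have h2 : shearMap s.1 (-(s.2.2 * P s.2.1)) (Pi.single s.2.1 s.2.2) (D i x) l
              = cshear P s.1 s.2.1 s.2.2 (D i x) l := rfl
          rw [h2]
          push_cast
          constructor <;> linarith [h1.1, h1.2]
      · intro j hj x hx
        exact hout j hj x hx
    have hD'i : D' i = fun x => cshear P s.1 s.2.1 s.2.2 (D i x) := by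
      rw [hD', Function.update_self]
    have hrec := ih hL' D' ((1 + |s.2.2|) * ρ₀) (by positivity) (by nlinarith)
      (by
        intro x hx l
        rw [hD'i]
        have h1 := cshear_radius P s.1 s.2.1 s.2.2 (D i x) ρ₀ (hin x hx) l
        push_cast
        exact h1)
      (by
        intro j hj x hx
        rw [hD', Function.update_of_ne hj]
        exact hout j hj x hx)
    have hfin : Function.update D' i (fun x => applyShears P L (D' i x))
        = Function.update D i (fun x => applyShears P (s :: L) (D i x)) := by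
      rw [hD'i, hD', Function.update_idem]
      rfl
    rw [hfin] at hrec
    exact Relation.ReflTransGen.head hstep hrec

/-- The four shears of `Scale2 (p, q, lam)`: effect `u_p ↦ u_p / lam`, `u_q ↦ lam * u_q` on the
coordinates `u = x - P` relative to the centre. -/
def scale2 (p q : Fin 3) (lam : ℚ) : List (Fin 3 × Fin 3 × ℚ) :=
  [(p, q, 1), (q, p, lam - 1), (p, q, -(1 / lam)), (q, p, lam * (1 - lam))]

theorem applyShears_scale2 (P : Fin 3 → ℚ) (p q : Fin 3) (hpq : p ≠ q) (lam : ℚ) (hlam : lam ≠ 0)
    (y : Sp) (l : Fin 3) :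
    applyShears P (scale2 p q lam) y l =
      if l = p then (P p : ℝ) + (y p - (P p : ℝ)) / (lam : ℝ)
      else if l = q then (P q : ℝ) + (lam : ℝ) * (y q - (P q : ℝ)) else y l := by
  have hlam' : (lam : ℝ) ≠ 0 := by exact_mod_cast hlam
  have hqp : q ≠ p := fun hh => hpq hh.symm
  simp only [scale2, applyShears, cshear_apply]
  by_cases hlp : l = p
  · subst hlp
    simp only [if_true, if_neg hpq, if_neg hqp, add_zero]
    push_cast
    field_simp
    ring
  · by_cases hlq : l = q
    · subst hlq
      simp only [if_true, if_neg hlp, if_neg hpq, add_zero]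
      push_cast
      field_simp
      ring
    · simp only [if_neg hlp, if_neg hlq, add_zero]

/-- The eight shears that rescale a parked box by `diag (s0, s1, 1 / (s0 * s1))`. -/
def reshapeShears (s0 s1 : ℚ) : List (Fin 3 × Fin 3 × ℚ) :=
  scale2 1 0 s0 ++ scale2 2 1 (s0 * s1)

theorem reshapeShears_ne (s0 s1 : ℚ) : ∀ t ∈ reshapeShears s0 s1, t.1 ≠ t.2.1 := by
  intro t ht
  simp only [reshapeShears, scale2, List.cons_append, List.nil_append, List.mem_cons,
    List.not_mem_nil, or_false] at ht
  rcases ht with rfl | rfl | rfl | rfl | rfl | rfl | rfl | rfl <;> (dsimp only; decide)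

theorem applyShears_reshape (P : Fin 3 → ℚ) (s : Fin 3 → ℚ) (hs : ∀ j, s j ≠ 0)
    (hprod : s 0 * s 1 * s 2 = 1) (y : Sp) :
    applyShears P (reshapeShears (s 0) (s 1)) y =
      fun l => (P l : ℝ) + (s l : ℝ) * (y l - (P l : ℝ)) := by
  have h0 : (s 0 : ℝ) ≠ 0 := by exact_mod_cast hs 0
  have h1 : (s 1 : ℝ) ≠ 0 := by exact_mod_cast hs 1
  have h2 : (s 2 : ℝ) ≠ 0 := by exact_mod_cast hs 2
  have hprod' : (s 0 : ℝ) * (s 1 : ℝ) * (s 2 : ℝ) = 1 := by exact_mod_cast hprod
  have h01 : s 0 * s 1 ≠ 0 := mul_ne_zero (hs 0) (hs 1)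
  have hs2 : (s 2 : ℝ) = 1 / ((s 0 : ℝ) * (s 1 : ℝ)) := by
    field_simp
    linarith
  funext l
  rw [reshapeShears, applyShears_append,
    applyShears_scale2 P 2 1 (by decide) (s 0 * s 1) h01,
    applyShears_scale2 P 1 0 (by decide) (s 0) (hs 0),
    applyShears_scale2 P 1 0 (by decide) (s 0) (hs 0),
    applyShears_scale2 P 1 0 (by decide) (s 0) (hs 0)]
  fin_cases l
  · simp
  · simp
    field_simp
  · simp
    rw [hs2]
    field_simp

theorem parkPos_zero {n : ℕ} (R : ℚ) (i : Fin n) : parkPos R i 0 = R * ((i : ℕ) + 1) := rfl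

/-- WP-C2 (`Spec.reshape`): reshaping at the parking positions by shears. -/
theorem reshape {n : ℕ} (a h : Fin n → Fin 3 → ℚ) (k : Fin n → Fin 3 → ℚ)
    (hh : ∀ i j, 0 < h i j) (hk : ∀ i j, 0 < k i j)
    (hvol : ∀ i, ∏ j : Fin 3, k i j / h i j = 1) :
    ∃ R₀ : ℚ, ∀ R : ℚ, R₀ ≤ R →
      Relation.ReflTransGen (Step a h)
        (fun i x => x + ratPoint (fun j => parkPos R i j - a i j))
        (fun i x j => (parkPos R i j : ℝ) + ((k i j / h i j : ℚ) : ℝ) * (x j - (a i j : ℝ))) := by
  classical
  have hspos : ∀ i j, 0 < k i j / h i j := fun i j => div_pos (hk i j) (hh i j)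
  have hprod : ∀ i, k i 0 / h i 0 * (k i 1 / h i 1) * (k i 2 / h i 2) = 1 := by
    intro i
    have := hvol i
    rw [Fin.prod_univ_three] at this
    exact this
  -- the constants
  have hHle : ∀ i l, h i l ≤ h i 0 + h i 1 + h i 2 := by
    intro i l
    have h0 := hh i 0
    have h1 := hh i 1
    have h2 := hh i 2
    fin_cases l <;> simp <;> linarith
  have hterm : ∀ i, 0 ≤ (h i 0 + h i 1 + h i 2) *
      growth (reshapeShears (k i 0 / h i 0) (k i 1 / h i 1)) + 1 := by
    intro i
    have h0 := hh i 0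
    have h1 := hh i 1
    have h2 := hh i 2
    have hg := one_le_growth (reshapeShears (k i 0 / h i 0) (k i 1 / h i 1))
    have : 0 ≤ (h i 0 + h i 1 + h i 2) *
      growth (reshapeShears (k i 0 / h i 0) (k i 1 / h i 1)) := by
      apply mul_nonneg <;> linarith
    linarith
  set ρ : ℚ := ∑ i, ((h i 0 + h i 1 + h i 2) *
      growth (reshapeShears (k i 0 / h i 0) (k i 1 / h i 1)) + 1) with hρ
  set ρ' : ℚ := ∑ j, (h j 0 + k j 0) with hρ'
  have hρ0 : 0 ≤ ρ := Finset.sum_nonneg fun i _ => hterm i
  have hρ'0 : 0 ≤ ρ' := Finset.sum_nonneg fun j _ => by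
    have := hh j 0
    have := hk j 0
    linarith
  have hρi : ∀ i, (h i 0 + h i 1 + h i 2) *
      growth (reshapeShears (k i 0 / h i 0) (k i 1 / h i 1)) < ρ := by
    intro i
    have := Finset.single_le_sum (f := fun i => (h i 0 + h i 1 + h i 2) *
      growth (reshapeShears (k i 0 / h i 0) (k i 1 / h i 1)) + 1)
      (fun i _ => hterm i) (Finset.mem_univ i)
    linarith
  have hρ'j : ∀ j, h j 0 + k j 0 ≤ ρ' := by
    intro j
    exact Finset.single_le_sum (f := fun j => h j 0 + k j 0)
      (fun j _ => by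
        have := hh j 0
        have := hk j 0
        linarith) (Finset.mem_univ j)
  refine ⟨ρ + ρ' + 2, fun R hR => ?_⟩
  have hR0 : (0 : ℝ) ≤ (R : ℝ) := by
    have : (0 : ℚ) ≤ R := by linarith
    exact_mod_cast this
  have hRr : (ρ : ℝ) + (ρ' : ℝ) + 2 ≤ (R : ℝ) := by exact_mod_cast hR
  -- intermediate configurations: boxes in `S` are already reshaped
  set Cfg : Finset (Fin n) → Config n := fun S i x =>
    if i ∈ S then (fun j => (parkPos R i j : ℝ) + ((k i j / h i j : ℚ) : ℝ) * (x j - (a i j : ℝ)))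
    else x + ratPoint (fun j => parkPos R i j - a i j) with hCfg
  -- every box stays within `h j 0 + k j 0` of its parking position in coordinate `0`
  have hcoord : ∀ (S : Finset (Fin n)) (j : Fin n), ∀ x ∈ box (a j) (h j),
      |Cfg S j x 0 - (parkPos R j 0 : ℝ)| ≤ ((h j 0 + k j 0 : ℚ) : ℝ) := by
    intro S j x hx
    have hx0 : |x 0 - (a j 0 : ℝ)| ≤ (h j 0 : ℝ) := hx 0
    have hh0 : (0 : ℝ) < (h j 0 : ℝ) := by exact_mod_cast hh j 0
    have hk0 : (0 : ℝ) < (k j 0 : ℝ) := by exact_mod_cast hk j 0
    simp only [hCfg]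
    by_cases hj : j ∈ S
    · rw [if_pos hj]
      have : (parkPos R j 0 : ℝ) + ((k j 0 / h j 0 : ℚ) : ℝ) * (x 0 - (a j 0 : ℝ)) -
          (parkPos R j 0 : ℝ) = ((k j 0 : ℝ) / (h j 0 : ℝ)) * (x 0 - (a j 0 : ℝ)) := by
        push_cast
        ring
      rw [this, abs_mul, abs_of_pos (div_pos hk0 hh0)]
      have h1 : (k j 0 : ℝ) / (h j 0 : ℝ) * |x 0 - (a j 0 : ℝ)| ≤
          (k j 0 : ℝ) / (h j 0 : ℝ) * (h j 0 : ℝ) :=
        mul_le_mul_of_nonneg_left hx0 (div_pos hk0 hh0).le
      have h2 : (k j 0 : ℝ) / (h j 0 : ℝ) * (h j 0 : ℝ) = (k j 0 : ℝ) := by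
        field_simp
      push_cast
      linarith
    · rw [if_neg hj]
      have : (x + ratPoint (fun l => parkPos R j l - a j l)) 0 - (parkPos R j 0 : ℝ)
          = x 0 - (a j 0 : ℝ) := by
        simp only [Pi.add_apply, ratPoint]
        push_cast
        ring
      rw [this]
      push_cast
      linarith
  have key : ∀ S : Finset (Fin n), Relation.ReflTransGen (Step a h) (Cfg ∅) (Cfg S) := by
    intro S
    induction S using Finset.induction_on with
    | empty => exact Relation.ReflTransGen.refl
    | insert i S hiS ih =>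
      refine ih.trans ?_
      have hchain := chain a h i (parkPos R i) ρ
        (reshapeShears (k i 0 / h i 0) (k i 1 / h i 1)) (reshapeShears_ne _ _) (Cfg S)
        (h i 0 + h i 1 + h i 2)
        (by
          have h0 := hh i 0
          have h1 := hh i 1
          have h2 := hh i 2
          linarith)
        (hρi i)
        (by
          intro x hx l
          have hxl : |x l - (a i l : ℝ)| ≤ (h i l : ℝ) := hx l
          have hle : (h i l : ℝ) ≤ ((h i 0 + h i 1 + h i 2 : ℚ) : ℝ) := by
            exact_mod_cast hHle i l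
          have : Cfg S i x l - (parkPos R i l : ℝ) = x l - (a i l : ℝ) := by
            simp only [hCfg, if_neg hiS, Pi.add_apply, ratPoint]
            push_cast
            ring
          rw [this]
          linarith)
        (by
          intro j hji x hx hmem
          have hc := hcoord S j x hx
          have hm := hmem 0
          have hρ'r : ((h j 0 + k j 0 : ℚ) : ℝ) ≤ (ρ' : ℝ) := by exact_mod_cast hρ'j j
          rw [abs_le] at hc
          have hm1 : (parkPos R i 0 : ℝ) - (ρ : ℝ) - 1 ≤ Cfg S j x 0 := by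
            have := hm.1
            push_cast at this
            exact this
          have hm2 : Cfg S j x 0 ≤ (parkPos R i 0 : ℝ) + (ρ : ℝ) + 1 := by
            have := hm.2
            push_cast at this
            exact this
          have hPi : (parkPos R i 0 : ℝ) = (R : ℝ) * (((i : ℕ) : ℝ) + 1) := by
            rw [parkPos_zero]
            push_cast
            ring
          have hPj : (parkPos R j 0 : ℝ) = (R : ℝ) * (((j : ℕ) : ℝ) + 1) := by
            rw [parkPos_zero]
            push_cast
            ring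
          rw [hPi] at hm1 hm2
          rw [hPj] at hc
          have hne : (j : ℕ) ≠ (i : ℕ) := fun hh' => hji (Fin.ext hh')
          rcases lt_or_gt_of_ne hne with hlt | hgt
          · have hd : ((j : ℕ) : ℝ) + 1 ≤ ((i : ℕ) : ℝ) := by exact_mod_cast hlt
            have := mul_le_mul_of_nonneg_left hd hR0
            nlinarith
          · have hd : ((i : ℕ) : ℝ) + 1 ≤ ((j : ℕ) : ℝ) := by exact_mod_cast hgt
            have := mul_le_mul_of_nonneg_left hd hR0
            nlinarith)
      have heq : Function.update (Cfg S) i (fun x =>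
          applyShears (parkPos R i) (reshapeShears (k i 0 / h i 0) (k i 1 / h i 1)) (Cfg S i x))
          = Cfg (insert i S) := by
        funext j
        by_cases hji : j = i
        · subst hji
          rw [Function.update_self]
          funext x
          simp only [hCfg, Finset.mem_insert_self, if_true, if_neg hiS]
          rw [applyShears_reshape (parkPos R j) (fun l => k j l / h j l)
            (fun l => (hspos j l).ne') (hprod j)]
          funext l
          simp only [Pi.add_apply, ratPoint]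
          push_cast
          ring
        · rw [Function.update_of_ne hji]
          funext x
          simp only [hCfg, Finset.mem_insert, hji, false_or]
      rw [heq] at hchain
      exact hchain
  have h0 : Cfg ∅ = fun i x => x + ratPoint (fun j => parkPos R i j - a i j) := by
    funext i x
    simp [hCfg]
  have h1 : Cfg Finset.univ = fun i x j =>
      (parkPos R i j : ℝ) + ((k i j / h i j : ℚ) : ℝ) * (x j - (a i j : ℝ)) := by
    funext i x
    simp [hCfg]
  have := key Finset.univ
  rw [h0, h1] at this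
  exact this

end

end Crest.Agent.Helper17
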